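import Mathlib.Algebra.MonoidAlgebra.MapDomain
import Mathlib.Data.Matrix.Mul
import Mathlib.Data.Matrix.Reflection
import Mathlib.LinearAlgebra.Matrix.Reindex
import Mathlib.Data.ZMod.Basic
import Mathlib.Algebra.CharP.Two
import Mathlib.Tactic.Group
import Mathlib.Tactic.NoncommRing
import Mathlib.Tactic.Abel

/-!
Rings which are not directly finite: matrix units, embeddings of matrix rings and of finite groups
(helper370).
-/

namespace Vale.Agent.P201.H370

universe u v w

section

variable {S : Type*} [Ring S] {a b : S}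

theorem a_mul (hab : a * b = 1) : a * (1 - b * a) = 0 := by
  rw [mul_sub, mul_one, ← mul_assoc, hab, one_mul, sub_self]

theorem mul_b (hab : a * b = 1) : (1 - b * a) * b = 0 := by
  rw [sub_mul, one_mul, mul_assoc, hab, mul_one, sub_self]

theorem idem (hab : a * b = 1) : (1 - b * a) * (1 - b * a) = 1 - b * a := by
  have h : (1 - b * a) * (1 - b * a) = (1 - b * a) - b * (a * (1 - b * a)) := by noncomm_ring
  rw [h, a_mul hab, mul_zero, sub_zero]

theorem pow_pow (hab : a * b = 1) : ∀ j : ℕ, a ^ j * b ^ j = 1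
  | 0 => by simp
  | j + 1 => by
    rw [pow_succ, pow_succ', mul_assoc, ← mul_assoc a b, hab, one_mul, pow_pow hab j]

theorem mid (hab : a * b = 1) (j k : ℕ) :
    (1 - b * a) * (a ^ j * b ^ k) * (1 - b * a) = if j = k then 1 - b * a else 0 := by
  rcases lt_trichotomy j k with h | h | h
  · obtain ⟨d, rfl⟩ := Nat.exists_eq_add_of_lt h
    rw [if_neg (by omega), add_assoc, pow_add b j, ← mul_assoc (a ^ j), pow_pow hab, one_mul,
      pow_succ', ← mul_assoc (1 - b * a), mul_b hab, zero_mul, zero_mul]
  · subst h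
    rw [if_pos rfl, pow_pow hab, mul_one, idem hab]
  · obtain ⟨d, rfl⟩ := Nat.exists_eq_add_of_lt h
    rw [if_neg (by omega), show k + d + 1 = (d + 1) + k by omega, pow_add a (d + 1), mul_assoc (a ^ (d + 1)),
      pow_pow hab, mul_one, pow_succ, mul_assoc, mul_assoc, a_mul hab, mul_zero, mul_zero]

variable (a b) in
/-- matrix units -/
def mu (i j : ℕ) : S := b ^ i * (1 - b * a) * a ^ j

theorem mu_mul_mu (hab : a * b = 1) (i j k l : ℕ) :
    mu a b i j * mu a b k l = if j = k then mu a b i l else 0 := by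
  have h : mu a b i j * mu a b k l =
      b ^ i * ((1 - b * a) * (a ^ j * b ^ k) * (1 - b * a)) * a ^ l := by
    unfold mu
    noncomm_ring
  rw [h, mid hab]
  split_ifs
  · rfl
  · rw [mul_zero, zero_mul]

theorem mu_zero_zero : mu a b 0 0 = 1 - b * a := by simp [mu]

theorem mu_ne_zero (hab : a * b = 1) (hba : b * a ≠ 1) (i j : ℕ) : mu a b i j ≠ 0 := by
  intro h
  have h1 : mu a b 0 i * mu a b i j * mu a b j 0 = mu a b 0 0 := by
    rw [mu_mul_mu hab, if_pos rfl, mu_mul_mu hab, if_pos rfl]
  rw [h, mul_zero, zero_mul, mu_zero_zero] at h1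
  exact hba (sub_eq_zero.1 h1.symm).symm

variable {K : Type*} [Ring K]

theorem commute_mu {c : S} (ha : Commute c a) (hb : Commute c b) (i j : ℕ) :
    Commute c (mu a b i j) :=
  ((hb.pow_right i).mul_right ((Commute.one_right c).sub_right (hb.mul_right ha))).mul_right
    (ha.pow_right j)

/-- the embedding of the matrix ring -/
noncomputable def phi (c : K →+* S) (hab : a * b = 1) (hc : ∀ k, Commute (c k) a ∧ Commute (c k) b)
    (n : ℕ) : Matrix (Fin n) (Fin n) K →ₙ+* S where
  toFun A := ∑ i, ∑ j, c (A i j) * mu a b i j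
  map_zero' := by simp
  map_add' A B := by simp [add_mul, Finset.sum_add_distrib]
  map_mul' A B := by
    have h1 : ∀ i j k l : Fin n, c (A i j) * mu a b i j * (c (B k l) * mu a b k l) =
        if j = k then c (A i j * B k l) * mu a b i l else 0 := by
      intro i j k l
      have h := (commute_mu (hc (B k l)).1 (hc (B k l)).2 (i : ℕ) (j : ℕ)).eq
      rw [mul_assoc, ← mul_assoc (mu a b i j), ← h, mul_assoc (c (B k l)), mu_mul_mu hab,
        ← mul_assoc, ← map_mul]
      by_cases hjk : j = k
      · rw [if_pos hjk, if_pos (congrArg _ hjk)]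
      · rw [if_neg hjk, if_neg (fun h => hjk (Fin.ext h)), mul_zero]
    calc ∑ i, ∑ l, c ((A * B) i l) * mu a b i l
        = ∑ i, ∑ l, ∑ j, c (A i j * B j l) * mu a b i l := by
          refine Finset.sum_congr rfl fun i _ => Finset.sum_congr rfl fun l _ => ?_
          rw [Matrix.mul_apply, map_sum, Finset.sum_mul]
      _ = ∑ i, ∑ j, ∑ l, c (A i j * B j l) * mu a b i l :=
          Finset.sum_congr rfl fun i _ => Finset.sum_comm
      _ = ∑ i, ∑ j, ∑ k, ∑ l, if j = k then c (A i j * B k l) * mu a b i l else 0 := by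
          refine Finset.sum_congr rfl fun i _ => Finset.sum_congr rfl fun j _ => ?_
          rw [Finset.sum_comm]
          refine Finset.sum_congr rfl fun l _ => ?_
          rw [Finset.sum_ite_eq, if_pos (Finset.mem_univ _)]
      _ = ∑ i, ∑ j, ∑ k, ∑ l, c (A i j) * mu a b i j * (c (B k l) * mu a b k l) := by
          simp only [h1]
      _ = (∑ i, ∑ j, c (A i j) * mu a b i j) * ∑ i, ∑ j, c (B i j) * mu a b i j := by
          rw [Finset.sum_mul]
          refine Finset.sum_congr rfl fun i _ => ?_
          rw [Finset.sum_mul]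
          refine Finset.sum_congr rfl fun j _ => ?_
          rw [Finset.mul_sum]
          refine Finset.sum_congr rfl fun k _ => ?_
          rw [Finset.mul_sum]

theorem phi_injective (c : K →+* S) (hab : a * b = 1)
    (hc : ∀ k, Commute (c k) a ∧ Commute (c k) b)
    (hf : ∀ k, c k * (1 - b * a) = 0 → k = 0) (n : ℕ) :
    Function.Injective (phi c hab hc n) := by
  rw [injective_iff_map_eq_zero]
  intro A hA
  ext p q
  refine hf _ ?_
  have h1 : ∑ i : Fin n, ∑ j : Fin n,
      mu a b 0 p * (c (A i j) * mu a b i j) * mu a b q 0 = 0 := by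
    have h2 : mu a b 0 p * (phi c hab hc n A) * mu a b q 0 = 0 := by rw [hA, mul_zero, zero_mul]
    have h3 : phi c hab hc n A = ∑ i, ∑ j, c (A i j) * mu a b i j := rfl
    rw [h3] at h2
    simpa only [Finset.sum_mul, Finset.mul_sum] using h2
  have h4 : ∀ i j : Fin n, mu a b 0 p * (c (A i j) * mu a b i j) * mu a b q 0 =
      if p = i then (if j = q then c (A i j) * (1 - b * a) else 0) else 0 := by
    intro i j
    have h := (commute_mu (hc (A i j)).1 (hc (A i j)).2 0 (p : ℕ)).eq
    rw [← mul_assoc, ← h, mul_assoc (c (A i j)), mu_mul_mu hab]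
    by_cases hpi : p = i
    · subst hpi
      rw [if_pos rfl, if_pos rfl, mul_assoc, mu_mul_mu hab]
      by_cases hjq : j = q
      · rw [if_pos hjq, if_pos (congrArg _ hjq), mu_zero_zero]
      · rw [if_neg hjq, if_neg (fun h => hjq (Fin.ext h)), mul_zero]
    · rw [if_neg hpi, if_neg (fun h => hpi (Fin.ext h)), mul_zero, zero_mul]
  simp only [h4] at h1
  rw [Finset.sum_comm] at h1
  simpa using h1

/-- a nonunital embedding gives an embedding of unit groups -/
theorem units_embedding {R : Type*} [Ring R] (φ : R →ₙ+* S) (hφ : Function.Injective φ) :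
    ∃ ψ : Rˣ →* Sˣ, Function.Injective ψ := by
  have key : ∀ x y : R, (1 - φ 1 + φ x) * (1 - φ 1 + φ y) = 1 - φ 1 + φ (x * y) := by
    intro x y
    have h1 : φ 1 * φ 1 = φ 1 := by rw [← map_mul, one_mul]
    have h2 : φ 1 * φ y = φ y := by rw [← map_mul, one_mul]
    have h3 : φ x * φ 1 = φ x := by rw [← map_mul, mul_one]
    have h4 : (1 - φ 1 + φ x) * (1 - φ 1 + φ y) = 1 - φ 1 - φ 1 + φ 1 * φ 1 + φ y - φ 1 * φ y + φ x
        - φ x * φ 1 + φ x * φ y := by noncomm_ring
    rw [h4, h1, h2, h3, map_mul]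
    abel
  have key1 : 1 - φ 1 + φ 1 = 1 := sub_add_cancel _ _
  refine ⟨{ toFun := fun g => ⟨1 - φ 1 + φ g, 1 - φ 1 + φ (g⁻¹ : Rˣ), ?_, ?_⟩
            map_one' := ?_
            map_mul' := ?_ }, ?_⟩
  · rw [key, Units.mul_inv, key1]
  · rw [key, Units.inv_mul, key1]
  · exact Units.ext key1
  · intro x y
    refine Units.ext ?_
    change 1 - φ 1 + φ ((x * y : Rˣ) : R) = (1 - φ 1 + φ x) * (1 - φ 1 + φ y)
    rw [key, Units.val_mul]
  · intro x y h
    have h1 : 1 - φ 1 + φ x = 1 - φ 1 + φ y := congrArg Units.val h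
    exact Units.ext (hφ (add_left_cancel h1))

end

/-- permutation matrices -/
theorem perm_matrices (K : Type u) [Ring K] [Nontrivial K] (Γ : Type w) [Group Γ] [Finite Γ] :
    ∃ n : ℕ, ∃ ψ : Γ →* (Matrix (Fin n) (Fin n) K)ˣ, Function.Injective ψ := by
  classical
  obtain ⟨n, ⟨e⟩⟩ := Finite.exists_equiv_fin Γ
  let P : Γ → Matrix (Fin n) (Fin n) K := fun g => Matrix.of fun x y =>
    if g * e.symm y = e.symm x then 1 else 0
  have hP : ∀ g h, P g * P h = P (g * h) := by
    intro g h
    ext x z
    rw [Matrix.mul_apply]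
    have h1 : ∀ y, P g x y * P h y z = if y = e (h * e.symm z) then
        (if g * (h * e.symm z) = e.symm x then 1 else 0) else 0 := by
      intro y
      simp only [P, Matrix.of_apply]
      by_cases hy : y = e (h * e.symm z)
      · subst hy
        simp
      · have : ¬ (h * e.symm z = e.symm y) := fun h' => hy (by rw [h', Equiv.apply_symm_apply])
        rw [if_neg this, mul_zero, if_neg hy]
    simp only [h1]
    rw [Finset.sum_ite_eq' , if_pos (Finset.mem_univ _)]
    simp only [P, Matrix.of_apply, mul_assoc]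
  have hP1 : P 1 = 1 := by
    ext x y
    simp only [P, Matrix.of_apply, one_mul, Matrix.one_apply]
    by_cases h : x = y
    · rw [if_pos h, if_pos (by rw [h])]
    · rw [if_neg h, if_neg (fun h' => h (e.symm.injective h').symm)]
  refine ⟨n, { toFun := fun g => ⟨P g, P g⁻¹, ?_, ?_⟩
               map_one' := ?_
               map_mul' := ?_ }, ?_⟩
  · rw [hP, mul_inv_cancel, hP1]
  · rw [hP, inv_mul_cancel, hP1]
  · exact Units.ext hP1
  · intro x y
    exact Units.ext (hP x y).symm
  · intro g h hgh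
    have h1 : P g = P h := congrArg Units.val hgh
    have h2 := congrFun (congrFun h1 (e g)) (e 1)
    simp only [P, Matrix.of_apply, Equiv.symm_apply_apply, mul_one, if_true] at h2
    by_contra hne
    rw [if_neg (fun h' => hne h'.symm)] at h2
    exact one_ne_zero h2

end Vale.Agent.P201.H370
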