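import Vale.Agent.P201.Bd3.B4
import Vale.Agent.P201.Bd3.B3
import Vale.Agent.P201.Bd3.B1
import Mathlib.GroupTheory.FinitelyPresentedGroup
import Vale.Agent.P201.H370.Units

/-!
P201, stronger form (helper370): one finitely presented torsion-free group for which all of
Kaplansky's conjectures on group algebras fail over every field of characteristic 2.
-/

namespace Vale.Agent.P201.H370

universe u v w

section

variable {G : Type} [Group G] (K : Type u) [Ring K] [Nontrivial K] [CharP K 2]
  (H : Type v) [Group H] (i : G →* H)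

/-- change of rings and groups -/
noncomputable def bc : MonoidAlgebra (ZMod 2) G →+* MonoidAlgebra K H :=
  (MonoidAlgebra.mapRingHom H (ZMod.castHom (dvd_refl 2) K)).comp
    (MonoidAlgebra.mapDomainRingHom (ZMod 2) i)

theorem bc_commute (k : K) (x : MonoidAlgebra (ZMod 2) G) :
    Commute (MonoidAlgebra.singleOneRingHom (R := K) (M := H) k) (bc K H i x) := by
  have h : ∀ y : MonoidAlgebra (ZMod 2) H, Commute (MonoidAlgebra.singleOneRingHom (R := K) (M := H) k)
      (MonoidAlgebra.mapRingHom H (ZMod.castHom (dvd_refl 2) K) y) := by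
    intro y
    induction y using MonoidAlgebra.induction_linear with
    | zero => rw [map_zero]; exact Commute.zero_right _
    | add x y hx hy => rw [map_add]; exact hx.add_right hy
    | single m r =>
      have h1 : MonoidAlgebra.mapRingHom H (ZMod.castHom (dvd_refl 2) K) (MonoidAlgebra.single m r) =
          MonoidAlgebra.single m (ZMod.castHom (dvd_refl 2) K r) := by
        simp [MonoidAlgebra.mapRingHom]
      rw [h1]
      refine MonoidAlgebra.single_commute_single (Commute.one_left m) ?_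
      have hr : ∀ r : ZMod 2, r = 0 ∨ r = 1 := by decide
      obtain rfl | rfl := hr r
      · rw [map_zero]; exact Commute.zero_right k
      · rw [map_one]; exact Commute.one_right k
  exact h _

theorem bc_faithful (hi : Function.Injective i) {x : MonoidAlgebra (ZMod 2) G} (hx : x ≠ 0) (k : K)
    (h : MonoidAlgebra.singleOneRingHom (R := K) (M := H) k * bc K H i x = 0) : k = 0 := by
  set y : MonoidAlgebra (ZMod 2) H := MonoidAlgebra.mapDomainRingHom (ZMod 2) i x with hy
  have hy0 : y ≠ 0 := by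
    intro h0
    have hinj : Function.Injective (MonoidAlgebra.mapDomainRingHom (ZMod 2) i) :=
      MonoidAlgebra.mapDomain_injective hi
    exact hx (hinj (h0.trans (map_zero _).symm))
  obtain ⟨g, hg⟩ : ∃ g, y.coeff g ≠ 0 := by
    by_contra hcon
    push Not at hcon
    exact hy0 (MonoidAlgebra.coeff_injective (by ext g; simpa using hcon g))
  have hr : ∀ r : ZMod 2, r ≠ 0 → r = 1 := by decide
  have hg1 : y.coeff g = 1 := hr _ hg
  have h2 : (MonoidAlgebra.single (1 : H) k * MonoidAlgebra.mapRingHom H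
      (ZMod.castHom (dvd_refl 2) K) y).coeff g = 0 := by
    have : MonoidAlgebra.single (1 : H) k * MonoidAlgebra.mapRingHom H
      (ZMod.castHom (dvd_refl 2) K) y = 0 := h
    rw [this]
    simp
  rw [MonoidAlgebra.coeff_single_one_mul, MonoidAlgebra.coeff_mapRingHom, hg1, map_one, mul_one] at h2
  exact h2

theorem bc_injective (hi : Function.Injective i) : Function.Injective (bc K H i) := by
  rw [injective_iff_map_eq_zero]
  intro x hx
  by_contra h
  exact one_ne_zero (bc_faithful K H i hi h 1 (by rw [hx, mul_zero]))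

variable {a b : MonoidAlgebra (ZMod 2) G}

theorem matrices (hab : a * b = 1) (hba : b * a ≠ 1) (hi : Function.Injective i) (n : ℕ) :
    ∃ φ : Matrix (Fin n) (Fin n) K →ₙ+* MonoidAlgebra K H, Function.Injective φ := by
  have h1 : bc K H i a * bc K H i b = 1 := by rw [← map_mul, hab, map_one]
  refine ⟨phi (MonoidAlgebra.singleOneRingHom (R := K) (M := H)) h1
    (fun k => ⟨bc_commute K H i k a, bc_commute K H i k b⟩) n, phi_injective _ h1 _ ?_ n⟩
  intro k hk
  refine bc_faithful K H i hi (x := 1 - b * a) (sub_ne_zero.2 (Ne.symm hba)) k ?_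
  rw [map_sub, map_mul, map_one]
  exact hk

theorem finite_groups (hab : a * b = 1) (hba : b * a ≠ 1) (hi : Function.Injective i)
    (Γ : Type w) [Group Γ] [Finite Γ] :
    ∃ ψ : Γ →* (MonoidAlgebra K H)ˣ, Function.Injective ψ := by
  obtain ⟨n, ψ, hψ⟩ := perm_matrices K Γ
  obtain ⟨φ, hφ⟩ := matrices K H i hab hba hi n
  obtain ⟨χ, hχ⟩ := units_embedding φ hφ
  exact ⟨χ.comp ψ, hχ.comp hψ⟩

end

/-- an involution which is not a scalar multiple of a group element -/
theorem involution {G : Type} [Group G] (htf : ∀ g : G, ∀ m : ℕ, 0 < m → g ^ m = 1 → g = 1)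
    {K : Type u} [Field K] [CharP K 2] {a b : MonoidAlgebra K G} (hab : a * b = 1)
    (hba : b * a ≠ 1) :
    ∃ u : (MonoidAlgebra K G)ˣ, u * u = 1 ∧
      ∀ (g : G) (k : K), (u : MonoidAlgebra K G) ≠ MonoidAlgebra.single g k := by
  have hchar : (2 : MonoidAlgebra K G) = 0 := by
    have h := congrArg (MonoidAlgebra.singleOneRingHom (R := K) (M := G)) (CharTwo.two_eq_zero (R := K))
    rwa [map_ofNat, map_zero] at h
  have h01 : mu a b 0 1 * mu a b 0 1 = 0 := by
    rw [mu_mul_mu hab, if_neg (by omega)]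
  have hsq : (1 + mu a b 0 1) * (1 + mu a b 0 1) = 1 := by
    have : (1 + mu a b 0 1) * (1 + mu a b 0 1) = 1 + 2 * mu a b 0 1 + mu a b 0 1 * mu a b 0 1 := by
      noncomm_ring
    rw [this, hchar, h01, zero_mul, add_zero, add_zero]
  refine ⟨⟨1 + mu a b 0 1, 1 + mu a b 0 1, hsq, hsq⟩, Units.ext hsq, fun g k h => ?_⟩
  have h1 : MonoidAlgebra.single (g * g) (k * k) = MonoidAlgebra.single (1 : G) (1 : K) := by
    rw [← MonoidAlgebra.single_mul_single, ← h, ← MonoidAlgebra.one_def]
    exact hsq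
  rw [MonoidAlgebra.single_inj] at h1
  rcases h1 with ⟨h2, h3⟩ | ⟨-, h3⟩
  · have hg : g = 1 := htf g 2 two_pos (by rw [pow_two]; exact h2)
    have hk : k = 1 := by
      have : (k - 1) * (k - 1) = 0 := by
        have h5 : (k - 1) * (k - 1) = k * k + 1 - 2 * k := by ring
        rw [h5, h3, CharTwo.two_eq_zero, zero_mul, sub_zero, one_add_one_eq_two,
          CharTwo.two_eq_zero]
      exact sub_eq_zero.1 (mul_self_eq_zero.1 this)
    have h4 : 1 + mu a b 0 1 = 1 := by
      have h5 : (1 + mu a b 0 1 : MonoidAlgebra K G) = MonoidAlgebra.single g k := h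
      rw [h5, hg, hk]
      rfl
    exact mu_ne_zero hab hba 0 1 (by simpa using h4)
  · exact one_ne_zero h3

/-- the main theorem -/
theorem main :
    ∃ (G : Type) (_ : Group G), (∀ g : G, ∀ m : ℕ, 0 < m → g ^ m = 1 → g = 1) ∧
      Group.IsFinitelyPresented G ∧
      (∀ (K : Type u) [Field K] [CharP K 2],
        (∃ a b : MonoidAlgebra K G, a ≠ 0 ∧ b ≠ 0 ∧ a * b = 0) ∧
        (∃ e : MonoidAlgebra K G, e * e = e ∧ e ≠ 0 ∧ e ≠ 1) ∧
        (∃ u : (MonoidAlgebra K G)ˣ, u * u = 1 ∧
          ∀ (g : G) (k : K), (u : MonoidAlgebra K G) ≠ MonoidAlgebra.single g k) ∧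
        (∃ a b : MonoidAlgebra K G, a * b = 1 ∧ b * a ≠ 1)) ∧
      ∀ (H : Type v) [Group H] (i : G →* H), Function.Injective i →
        ∀ (K : Type u) [Ring K] [Nontrivial K] [CharP K 2],
          (∀ n : ℕ, ∃ φ : Matrix (Fin n) (Fin n) K →ₙ+* MonoidAlgebra K H, Function.Injective φ) ∧
          ∀ (Γ : Type w) [Group Γ] [Finite Γ],
            ∃ ψ : Γ →* (MonoidAlgebra K H)ˣ, Function.Injective ψ := by
  obtain ⟨S, σ, e1, he1, Y, htor, hlin, a, b, hab, hba⟩ :=
    Vale.Agent.P194.M.data Vale.Agent.P201.S.stmtLoc Vale.Agent.P201.S.stmtGlob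
      Vale.Agent.P201.S.stmtTor
  have : Finite (Vale.Agent.P201.S.rels σ) :=
    (Vale.Agent.P186.Hyp.rels_finite σ).to_subtype
  refine ⟨Vale.Agent.P201.S.Gp σ, inferInstance, htor, inferInstance, fun K _ _ => ?_,
    fun H _ i hi K _ _ _ => ⟨fun n => matrices K H i hab hba hi n,
      fun Γ _ _ => finite_groups K H i hab hba hi Γ⟩⟩
  have hinj := bc_injective K _ (MonoidHom.id (Vale.Agent.P201.S.Gp σ)) Function.injective_id
  set a' := bc K _ (MonoidHom.id (Vale.Agent.P201.S.Gp σ)) a with ha'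
  set b' := bc K _ (MonoidHom.id (Vale.Agent.P201.S.Gp σ)) b with hb'
  have h1 : a' * b' = 1 := by rw [ha', hb', ← map_mul, hab, map_one]
  have h2 : b' * a' ≠ 1 := by
    intro h
    rw [ha', hb', ← map_mul] at h
    exact hba (hinj (h.trans (map_one _).symm))
  have hf : 1 - b' * a' ≠ 0 := sub_ne_zero.2 (Ne.symm h2)
  refine ⟨⟨a', 1 - b' * a', ?_, hf, a_mul h1⟩, ⟨1 - b' * a', idem h1, hf, ?_⟩,
    involution htor h1 h2, ⟨a', b', h1, h2⟩⟩
  · intro h
    rw [h, zero_mul] at h1
    exact zero_ne_one h1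
  · intro h
    have h3 : b' * a' = 0 := by simpa using h
    have h4 : (1 : MonoidAlgebra K (Vale.Agent.P201.S.Gp σ)) = 0 := by
      calc (1 : MonoidAlgebra K (Vale.Agent.P201.S.Gp σ)) = (a' * b') * (a' * b') := by
            rw [h1, mul_one]
        _ = a' * (b' * a') * b' := by noncomm_ring
        _ = 0 := by rw [h3, mul_zero, zero_mul]
    exact one_ne_zero h4

end Vale.Agent.P201.H370
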